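import Vale.Agent.N355.Final
import Vale.Agent.N355.D.All

namespace Vale.Agent.Results.P355.AAThree

/-- **`N(6) = 3`.** The largest number of pairwise mutually unbiased orthonormal bases of `ℂ⁶`
is three: in coordinates (`v i k` is the `k`-th vector of the `i`-th basis), for families of
orthonormal bases, and for sets of orthonormal bases. -/
theorem result :
    IsGreatest {n : ℕ | ∃ v : Fin n → Fin 6 → Fin 6 → ℂ,
      (∀ i k l, ∑ r, star (v i k r) * v i l r = if k = l then 1 else 0) ∧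
      ∀ i j, i ≠ j → ∀ k l, ‖∑ r, star (v i k r) * v j l r‖ ^ 2 = 1 / 6} 3 ∧
    IsGreatest {n : ℕ | ∃ B : Fin n → OrthonormalBasis (Fin 6) ℂ (EuclideanSpace ℂ (Fin 6)),
      ∀ i j, i ≠ j → ∀ k l,
        ‖@inner ℂ _ InnerProductSpace.toInner (B i k) (B j l)‖ ^ 2 = 1 / 6} 3 ∧
    IsGreatest {n : ℕ∞ | ∃ S : Set (OrthonormalBasis (Fin 6) ℂ (EuclideanSpace ℂ (Fin 6))),
      (S.Pairwise fun B C => ∀ k l,
        ‖@inner ℂ _ InnerProductSpace.toInner (B k) (C l)‖ ^ 2 = 1 / 6) ∧ S.encard = n} 3 :=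
  Vale.Agent.N355.Final.final_of Vale.Agent.N355.D.not_quad

end Vale.Agent.Results.P355.AAThree
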